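import Mathlib

/-!
# P190 / H231: coefficient fields in equal characteristic zero (Cohen)
-/

set_option autoImplicit false

namespace Vale.Agent.P190.H231

universe u

/-- Every field extension of `ℚ` is formally smooth over `ℚ`. -/
theorem formallySmooth_rat (L : Type u) [Field L] [Algebra ℚ L] :
    Algebra.FormallySmooth ℚ L := by
  obtain ⟨s, hs⟩ := exists_isTranscendenceBasis ℚ L
  have hb : AlgebraicIndependent ℚ ((↑) : s → L) := hs.1
  have halg : Algebra.IsAlgebraic
      (IntermediateField.adjoin ℚ (Set.range ((↑) : s → L))) L := hs.isAlgebraic_field
  have hsep : Algebra.IsSeparable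
      (IntermediateField.adjoin ℚ (Set.range ((↑) : s → L))) L := inferInstance
  exact Algebra.FormallySmooth.of_algebraicIndependent_of_isSeparable hb

/-- Cohen's structure theorem, coefficient fields in equal characteristic zero: a local ring
containing `ℚ` and complete for its maximal ideal contains a field mapping isomorphically onto
the residue field. -/
theorem exists_coefficientField (B : Type u) [CommRing B] [IsLocalRing B] [Algebra ℚ B]
    (hB : IsAdicComplete (IsLocalRing.maximalIdeal B) B) :
    ∃ (K : Type u) (_ : Field K) (_ : CharZero K) (f : K →+* B),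
      Function.Bijective ((IsLocalRing.residue B).comp f) := by
  classical
  have hs : Algebra.FormallySmooth ℚ (IsLocalRing.ResidueField B) := formallySmooth_rat _
  obtain ⟨g, hg⟩ := Algebra.FormallySmooth.exists_mkₐ_comp_eq_of_isAdicComplete
    (R := ℚ) (A := IsLocalRing.ResidueField B) (S := B) (I := IsLocalRing.maximalIdeal B)
    (AlgHom.id ℚ (IsLocalRing.ResidueField B))
  refine ⟨IsLocalRing.ResidueField B, inferInstance, algebraRat.charZero _, g.toRingHom, ?_⟩
  have h1 : ∀ x, (IsLocalRing.residue B) (g x) = x := fun x => by
    have := DFunLike.congr_fun hg x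
    exact this
  have h2 : (⇑((IsLocalRing.residue B).comp g.toRingHom)) = id := by
    funext x; exact h1 x
  rw [h2]
  exact Function.bijective_id

end Vale.Agent.P190.H231
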