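import Mathlib

/-!
# P190 / H231: Witt vectors of a perfect field as a complete regular local ring
-/

set_option autoImplicit false
set_option linter.unusedSectionVars false

namespace Vale.Agent.P190.H231

open IsLocalRing RingTheory.Sequence

universe u

variable (p : ℕ) [hp : Fact p.Prime] (k : Type u) [Field k] [CharP k p] [PerfectRing k p]

theorem witt_maximalIdeal :
    maximalIdeal (WittVector p k) = Ideal.span {(p : WittVector p k)} := by
  exact (IsDiscreteValuationRing.irreducible_iff_uniformizer _).1 (WittVector.irreducible p)

theorem witt_complete : IsAdicComplete (maximalIdeal (WittVector p k)) (WittVector p k) := by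
  rw [witt_maximalIdeal]
  infer_instance

theorem witt_p_ne_zero : (p : WittVector p k) ≠ 0 :=
  (WittVector.irreducible p).ne_zero

theorem witt_charZero : CharZero (WittVector p k) := by
  obtain ⟨q, hq⟩ := CharP.exists (WittVector p k)
  rcases CharP.char_is_prime_or_zero (WittVector p k) q with h | rfl
  · exfalso
    have h1 : ((q : ℕ) : k) = 0 := by
      have h2 := congrArg (WittVector.constantCoeff (p := p) (R := k))
        (CharP.cast_eq_zero (WittVector p k) q)
      rwa [map_natCast, map_zero] at h2
    have h3 : p ∣ q := (CharP.cast_eq_zero_iff k p q).1 h1
    have h4 : p = q := (Nat.prime_dvd_prime_iff_eq hp.out h).1 h3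
    subst h4
    exact witt_p_ne_zero p k (CharP.cast_eq_zero (WittVector p k) p)
  · exact CharP.charP_to_charZero _

/-- `[p]` is a regular sequence of `W(k)` -/
theorem witt_isWeaklyRegular :
    IsWeaklyRegular (WittVector p k) [(p : WittVector p k)] := by
  rw [isWeaklyRegular_cons_iff]
  refine ⟨?_, IsWeaklyRegular.nil _ _⟩
  exact fun a b h => mul_left_cancel₀ (witt_p_ne_zero p k) h

/-- `[p]` generates the maximal ideal of `W(k)` -/
theorem witt_ofList : Ideal.ofList [(p : WittVector p k)] = maximalIdeal (WittVector p k) := by
  rw [witt_maximalIdeal, Ideal.ofList_singleton]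

theorem witt_isDomain : IsDomain (WittVector p k) := inferInstance
theorem witt_isLocal : IsLocalRing (WittVector p k) := inferInstance
theorem witt_noeth : IsNoetherianRing (WittVector p k) := inferInstance

/-- the residue field of `W(k)` is `k`, by the constant coefficient -/
theorem witt_constantCoeff_surjective :
    Function.Surjective (WittVector.constantCoeff (p := p) (R := k)) :=
  WittVector.constantCoeff_surjective p

theorem witt_ker_constantCoeff :
    RingHom.ker (WittVector.constantCoeff (p := p) (R := k)) = maximalIdeal (WittVector p k) := by
  rw [witt_maximalIdeal, WittVector.ker_constantCoeff]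

end Vale.Agent.P190.H231
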